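import Vale.Agent.P144U.Defs
import Vale.Agent.P144E.Ge4.Main

/-!
The discretisation of the domains; the angle only enters at the tips.
-/

namespace Vale.Agent.P144Z

open B6a P144

namespace RawA

/-- The union or the intersection of two regions of the plane. -/
def TwoC (un : Bool) (S₁ S₂ : Set ℂ) : Set ℂ :=
  {w | if un then w ∈ S₁ ∨ w ∈ S₂ else w ∈ S₁ ∧ w ∈ S₂}

/-- Off the boundary of `S` only one of the two sets is seen. -/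
lemma one {S S' : Set ℂ} {z : ℂ} (h : z ∉ frontier S) : ∃ ε > (0 : ℝ),
    (∀ w ∈ Metric.ball z ε, w ∈ S ∩ S' ↔ w ∈ S') ∨ ∀ w ∈ Metric.ball z ε, w ∈ S ∩ S' ↔ w ∈ S := by
  by_cases hz : z ∈ closure S
  · obtain ⟨ε, ε0, h1⟩ := Metric.mem_nhds_iff.1
      (mem_interior_iff_mem_nhds.1 (not_not.1 fun o => h ⟨hz, o⟩))
    exact ⟨ε, ε0, Or.inl fun w hw => ⟨fun o => o.2, fun o => ⟨h1 hw, o⟩⟩⟩
  · obtain ⟨ε, ε0, h1⟩ := Metric.mem_nhds_iff.1 (isClosed_closure.isOpen_compl.mem_nhds hz)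
    exact ⟨ε, ε0, Or.inr fun w hw => ⟨fun o => o.1, fun o => (h1 hw (subset_closure o)).elim⟩⟩

lemma shrink {D E S : Set ℂ} {z : ℂ} {r ε : ℝ} (e : D ∩ Metric.ball z r = E ∩ Metric.ball z r)
    (h : ∀ w ∈ Metric.ball z ε, w ∈ E ↔ w ∈ S) :
    D ∩ Metric.ball z (min r ε) = S ∩ S ∩ Metric.ball z (min r ε) := by
  ext w
  refine and_congr_left fun hw => ?_
  have h1 := Set.ext_iff.1 e w
  simp only [Set.mem_inter_iff, Metric.ball_subset_ball (min_le_left r ε) hw, and_true] at h1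
  rw [Set.inter_self, h1, h w (Metric.ball_subset_ball (min_le_right r ε) hw)]

/-- A corner is a wide convex corner or a tip. -/
lemma corner {α : ℝ} {D : Set ℂ} {z : ℂ} (h : Corner α D z) {κ : ℝ} (hκ : 0 < κ) :
    ∃ r > (0 : ℝ), ∃ (un : Bool) (S₁ S₂ : Set ℂ) (ν₁ ν₂ : ℂ), ‖ν₁‖ = 1 ∧ ‖ν₂‖ = 1 ∧
      Cone S₁ ν₁ κ ∧ Cone S₂ ν₂ κ ∧
      (1 ≤ ‖ν₁ + ν₂‖ ∧ D ∩ Metric.ball z r = S₁ ∩ S₂ ∩ Metric.ball z r ∨
        α ≤ ‖ν₁ + ν₂‖ ∧ α ≤ ‖ν₁ - ν₂‖ ∧ (un = false → ‖ν₁ + ν₂‖ ≤ 1) ∧ z ∈ frontier S₁ ∧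
          z ∈ frontier S₂ ∧ D ∩ Metric.ball z r = TwoC un S₁ S₂ ∩ Metric.ball z r) := by
  obtain ⟨r, r0, S₁, S₂, ν₁, ν₂, n₁, n₂, hα, c₁, c₂, e | ⟨b1, b2, b3, e⟩⟩ := h κ hκ
  swap
  · exact ⟨r, r0, true, S₁, S₂, ν₁, ν₂, n₁, n₂, c₁, c₂,
      Or.inr ⟨hα, b1, fun o => by simp at o, b2, b3, e⟩⟩
  have k : ∀ {S : Set ℂ} {ν : ℂ} {ε : ℝ}, 0 < ε → ‖ν‖ = 1 → Cone S ν κ →
      (∀ w ∈ Metric.ball z ε, w ∈ S₁ ∩ S₂ ↔ w ∈ S) → _ := fun {S ν ε} ε0 n c o =>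
    (⟨min r ε, lt_min r0 ε0, true, S, S, ν, ν, n, n, c, c, Or.inl ⟨by
      rw [← two_mul, norm_mul, n]; simp, shrink e o⟩⟩ :
    ∃ r > (0 : ℝ), ∃ (un : Bool) (S₁ S₂ : Set ℂ) (ν₁ ν₂ : ℂ), ‖ν₁‖ = 1 ∧ ‖ν₂‖ = 1 ∧
      Cone S₁ ν₁ κ ∧ Cone S₂ ν₂ κ ∧
      (1 ≤ ‖ν₁ + ν₂‖ ∧ D ∩ Metric.ball z r = S₁ ∩ S₂ ∩ Metric.ball z r ∨
        α ≤ ‖ν₁ + ν₂‖ ∧ α ≤ ‖ν₁ - ν₂‖ ∧ (un = false → ‖ν₁ + ν₂‖ ≤ 1) ∧ z ∈ frontier S₁ ∧
          z ∈ frontier S₂ ∧ D ∩ Metric.ball z r = TwoC un S₁ S₂ ∩ Metric.ball z r))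
  by_cases f₁ : z ∈ frontier S₁
  swap
  · obtain ⟨ε, ε0, o | o⟩ := one (S' := S₂) f₁
    exacts [k ε0 n₂ c₂ o, k ε0 n₁ c₁ o]
  by_cases f₂ : z ∈ frontier S₂
  swap
  · obtain ⟨ε, ε0, o | o⟩ := one (S' := S₁) f₂
    exacts [k ε0 n₁ c₁ (Set.inter_comm S₁ S₂ ▸ o), k ε0 n₂ c₂ (Set.inter_comm S₁ S₂ ▸ o)]
  rcases le_total 1 ‖ν₁ + ν₂‖ with h1 | h1
  · exact ⟨r, r0, true, S₁, S₂, ν₁, ν₂, n₁, n₂, c₁, c₂, Or.inl ⟨h1, e⟩⟩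
  refine ⟨r, r0, false, S₁, S₂, ν₁, ν₂, n₁, n₂, c₁, c₂, Or.inr ⟨hα, ?_, fun _ => h1, f₁, f₂, e⟩⟩
  have h2 := norm_add_le (ν₁ + ν₂) (ν₁ - ν₂)
  rw [add_add_sub_cancel, ← two_mul, norm_mul, n₁, Complex.norm_ofNat] at h2
  linarith

/-- A tip read on the lattice. -/
lemma tip {D S₁ S₂ : Set ℂ} {un : Bool} {ν₁ ν₂ z : ℂ} {α κ κ' r T a : ℝ} (hT : ∀ z ∈ D, ‖z‖ ≤ T)
    (ha : 0 < a) (hκ : κ ≤ 1 / 10) (hκ' : κ ≤ κ') (n₁ : ‖ν₁‖ = 1) (n₂ : ‖ν₂‖ = 1)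
    (c₁ : Cone S₁ ν₁ κ) (c₂ : Cone S₂ ν₂ κ)
    (h : α ≤ ‖ν₁ + ν₂‖ ∧ α ≤ ‖ν₁ - ν₂‖ ∧ (un = false → ‖ν₁ + ν₂‖ ≤ 1) ∧ z ∈ frontier S₁ ∧
      z ∈ frontier S₂ ∧ D ∩ Metric.ball z r = TwoC un S₁ S₂ ∩ Metric.ball z r) {s : ℕ}
    (hs : 2 * a + 2 * (a * s) < r) : TipU (disc D a) α κ' s (fl a z) :=
  ⟨un, _, _, ν₁, ν₂, ⟨⟨n₁, n₂, h.1, h.2.1, epi (Ge4.Cone.mono c₁ hκ') ha _,
    epi (Ge4.Cone.mono c₂ hκ') ha _, Ge4.wall c₁ hκ n₁ h.2.2.2.1 ha,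
    Ge4.wall c₂ hκ n₂ h.2.2.2.2.1 ha⟩, h.2.2.1⟩, fun v hv => Ge4.read hT ha h.2.2.2.2.2 (by
      linarith [Ge4.norm_add_le_zd ha (fl a z) v z hv, Ge4.norm_fl ha z])⟩

end RawA

open Ge4 in
/-- The discretisation of the domains. -/
theorem rawStmtU : RawStmtU := by
  classical
  rintro α D ⟨-, hb, h⟩
  obtain ⟨T, T0, hT⟩ := hb.exists_pos_norm_le
  refine ⟨T, T0, fun κ₀ hκ₀ => ?_⟩
  set κ := min κ₀ (1 / 10) with hκ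
  have k1 : κ ≤ 1 / 10 := min_le_right _ _
  have k2 : κ ≤ κ₀ := min_le_left _ _
  choose R R0 un S₁ S₂ ν₁ ν₂ n₁ n₂ c₁ c₂ hD using
    fun z => RawA.corner (h z) (κ := κ) (by positivity)
  obtain ⟨F, ρ, ρ0, ρ1, ρ2, ρ3, hF⟩ := cover (T + 1) R R0
  refine ⟨ρ, ρ0, fun a ha => ⟨disc_iff hT ha,
    fun x hx => (zd_le ha x).trans (hT _ ((disc_iff hT ha x).1 hx)), fun r r1 hr => ?_⟩⟩
  have a1 : a ≤ a * r := le_mul_of_one_le_right ha.le (by exact_mod_cast r1)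
  set G := F.filter fun z => ¬ (1 ≤ ‖ν₁ z + ν₂ z‖ ∧
    D ∩ Metric.ball z (R z) = S₁ z ∩ S₂ z ∩ Metric.ball z (R z)) with hG
  have ht : ∀ z ∈ G, ∀ s : ℕ, 2 * a + 2 * (a * s) < R z → TipU (disc D a) α κ₀ s (fl a z) :=
    fun z hz s hs => RawA.tip hT ha k1 k2 (n₁ z) (n₂ z) (c₁ z) (c₂ z)
      ((hD z).resolve_left (Finset.mem_filter.1 hz).2) hs
  refine ⟨G.image (fl a), ?_, ?_, fun y => ?_⟩
  · intro p hp p' hp' e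
    obtain ⟨z, hz, rfl⟩ := Finset.mem_image.1 hp
    obtain ⟨z', hz', rfl⟩ := Finset.mem_image.1 hp'
    have h1 := ρ3 z (Finset.mem_filter.1 hz).1 z' (Finset.mem_filter.1 hz').1 fun e' => e (e' ▸ rfl)
    have h2 := le_zd ha (fl a z - fl a z')
    rw [← zd_eq, pt_sub] at h2
    have h3 : ‖z - z'‖ ≤ ‖pt a (fl a z) - z‖ + ‖pt a (fl a z) - pt a (fl a z')‖ +
        ‖pt a (fl a z') - z'‖ := by
      rw [norm_sub_rev _ z]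
      exact (norm_sub_le_norm_sub_add_norm_sub z (pt a (fl a z')) z').trans
        (add_le_add_left (norm_sub_le_norm_sub_add_norm_sub _ _ _) _)
    have h4 : a * r < a * zd (fl a z) (fl a z') := by
      linarith [norm_fl ha z, norm_fl ha z']
    exact_mod_cast lt_of_mul_lt_mul_left h4 ha.le
  · intro p hp
    obtain ⟨z, hz, rfl⟩ := Finset.mem_image.1 hp
    exact ht z hz r (by linarith [ρ2 z (Finset.mem_filter.1 hz).1])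
  · rcases le_or_gt ‖pt a y‖ (T + 1) with hy | hy
    · obtain ⟨z, hz, h1⟩ := hF _ hy
      have h2 := ρ2 z hz
      by_cases e : 1 ≤ ‖ν₁ z + ν₂ z‖ ∧
        D ∩ Metric.ball z (R z) = S₁ z ∩ S₂ z ∩ Metric.ball z (R z)
      · exact Or.inl ⟨_, _, ν₁ z, ν₂ z, n₁ z, n₂ z, e.1, epi (Cone.mono (c₁ z) k2) ha y,
          epi (Cone.mono (c₂ z) k2) ha y,
          fun v hv => read hT ha e.2 (by linarith [norm_add_le_zd ha y v z hv])⟩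
      · have hz' : z ∈ G := Finset.mem_filter.2 ⟨hz, e⟩
        refine Or.inr ⟨fl a z, Finset.mem_image_of_mem _ hz', _, le_rfl, ht z hz' _ ?_⟩
        have h3 := zd_le ha (y - fl a z)
        rw [← zd_eq, pt_sub] at h3
        have h4 := norm_sub_le_norm_sub_add_norm_sub (pt a y) z (pt a (fl a z))
        rw [norm_sub_rev z] at h4
        push_cast
        linarith [norm_fl ha z, mul_add a (zd y (fl a z) : ℝ) r]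
    · refine Or.inl ⟨∅, ∅, 1, 1, norm_one, norm_one, by norm_num, fun _ h => h.elim,
        fun _ h => h.elim, fun v hv => ⟨fun h1 => ?_, fun h1 => h1.1.elim⟩⟩
      have h2 := hT _ ((disc_iff hT ha _).1 h1)
      have h3 := norm_add_le_zd ha (y + v) (-v) 0 (s := r) (by
        rw [zd_eq] at hv ⊢
        simpa [zd] using hv)
      rw [add_neg_cancel_right, sub_zero, sub_zero] at h3
      exfalso
      linarith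

end Vale.Agent.P144Z
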